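import Vale.Agent.N192T.Defs

/-!
# P193: word problem, fixed point properties, width: definitions
-/

namespace Vale.Agent.N193T

open scoped Pointwise

universe u

/-- The element of `G` represented by a word in the letters `S i` (written `(i, true)`) and
`(S i)⁻¹` (written `(i, false)`). -/
def wordValue {G : Type*} [Group G] {n : ℕ} (S : Fin n → G) (w : List (Fin n × Bool)) : G :=
  (w.map fun p => if p.2 then S p.1 else (S p.1)⁻¹).prod

/-- One algorithm decides, for every word in the `S i` and their inverses, whether it represents
the identity. -/
def DecidableWordProblem {G : Type*} [Group G] {n : ℕ} (S : Fin n → G) : Prop :=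
  ComputablePred fun w : List (Fin n × Bool) => wordValue S w = 1

/-- Every action of `K` by isometries on a real Hilbert space fixes a point. -/
def FixHilbert (K : Type) [Group K] : Prop :=
  ∀ (H : Type u) [NormedAddCommGroup H] [InnerProductSpace ℝ H] [CompleteSpace H]
    (α : K →* (H ≃ᵢ H)), ∃ p : H, ∀ g, α g p = p

/-- Every action of `K` by automorphisms on a tree fixes a vertex. -/
def FixTree (K : Type) [Group K] : Prop :=
  ∀ (V : Type u) (T : SimpleGraph V), T.IsTree → ∀ α : K →* (T ≃g T), ∃ v : V, ∀ g, α g v = v

/-- Property FW: in every action of `K` on a set, a subset `M` that differs from each translate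
`g M` by a finite set differs from some invariant subset by a finite set. -/
def FW (K : Type) [Group K] : Prop :=
  ∀ (X : Type u) [MulAction K X] (M : Set X), (∀ g : K, (symmDiff (g • M) M).Finite) →
    ∃ N : Set X, (∀ g : K, g • N = N) ∧ (symmDiff M N).Finite

/-- `g` is a product of at most `n` elements with property `P`. -/
def Wd {K : Type} [Group K] (P : K → Prop) (n : ℕ) (g : K) : Prop :=
  ∃ l : List K, l.length ≤ n ∧ (∀ t ∈ l, P t) ∧ l.prod = g

end Vale.Agent.N193T
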