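import Vale.Agent.N193T.Ring
import Vale.Agent.N192T.Kaz

/-!
# P193: the unit group is the Steinberg group `St₅`
-/

namespace Vale.Agent.N193T

open Vale.Agent.P193.BH Vale.Agent.N192T
open scoped commutatorElement

universe u

variable {A : Type} [Ring A] [Algebra (ZMod 2) A]

/-- an isomorphism `A ≅ A⁵` -/
structure Frame (s t : Fin 5 → A) : Prop where
  self : ∀ i, t i * s i = 1
  ne : ∀ {i j}, i ≠ j → t i * s j = 0
  sum : ∑ i, s i * t i = 1

omit [Algebra (ZMod 2) A] in
theorem exists_frame (I : InfSum A) : ∃ s t : Fin 5 → A, Frame s t := by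
  refine ⟨![I.x0, I.x1 * I.x0, I.x1 * I.x1 * I.x0, I.x1 * I.x1 * I.x1 * I.x0,
    I.x1 * I.x1 * I.x1 * I.x1], ![I.y0, I.y0 * I.y1, I.y0 * I.y1 * I.y1, I.y0 * I.y1 * I.y1 * I.y1,
    I.y1 * I.y1 * I.y1 * I.y1], fun i => ?_, fun {i j} h => ?_, ?_⟩
  · fin_cases i <;> simp [mul_assoc, rr I.h00, rr I.h11]
  · fin_cases i <;> fin_cases j <;>
      first | exact absurd rfl h | simp [mul_assoc, rr I.h01, rr I.h10, rr I.h11]
  · have h : ∀ z, I.x0 * (I.y0 * z) + I.x1 * (I.y1 * z) = z := fun z => by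
      rw [← mul_assoc, ← mul_assoc, ← add_mul, I.hs, one_mul]
    simp only [Fin.sum_univ_succ, Matrix.cons_val_zero, Matrix.cons_val_succ, Finset.univ_eq_empty,
      Finset.sum_empty, add_zero, mul_assoc, ← mul_add, h, I.hs]

open Classical in
/-- elementary units -/
noncomputable def xe (s t : Fin 5 → A) (i j : Fin 5) (r : A) : Aˣ :=
  if h : t j * (s i * r) = 0 ∧ i ≠ j then tr _ _ h.1 else 1

variable {s t : Fin 5 → A} (F : Frame s t)
include F

theorem xe_val {i j : Fin 5} (h : i ≠ j) (r : A) : (xe s t i j r : A) = 1 + s i * r * t j := by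
  rw [xe, dif_pos ⟨by simp only [ex, rr (F.ne h.symm)], h⟩, tr_val]

theorem xe_inv {i j : Fin 5} (h : i ≠ j) (r : A) : (xe s t i j r)⁻¹ = xe s t i j r := by
  rw [xe, dif_pos ⟨by simp only [ex, rr (F.ne h.symm)], h⟩, tr_inv]

theorem xe_isSt : Vale.Agent.N192.IsSt (fun (i j : Fin 5) (_ : A) => i ≠ j) (xe s t) where
  add := fun {i j a b} h _ => by
    ext
    simp only [Units.val_mul, xe_val F h, ex, rr (F.ne h.symm)]
    abel
  comm := fun {i j k l a b} h1 h2 h3 h4 => by
    ext
    simp only [Units.val_mul, xe_val F h1, xe_val F h2, ex, rr (F.ne h3), rr (F.ne h4.symm)]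
    abel
  mul := fun {i j k a b} h1 h2 h3 => by
    ext
    simp only [commutatorElement_def, Units.val_mul, xe_inv F h1, xe_inv F h2, xe_val F h1,
      xe_val F h2, xe_val F h3, ex, rr (F.ne h1.symm), rr (F.ne h2.symm), rr (F.ne h3.symm),
      rr (F.self j)]
    apply c2; match_scalars <;> decide

section Gen

variable {H : Subgroup Aˣ} (hH : ∀ i j r, i ≠ j → xe s t i j r ∈ H)
include hH

theorem col_mem (k : Fin 5) {x : A} (h : t k * x = 0) : tr x (t k) h ∈ H := by
  have key : ∃ g ∈ H, (g : A) = 1 + (∑ i, s i * (t i * x)) * t k ∧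
      t k * ∑ i, s i * (t i * x) = 0 := by
    refine Finset.sum_induction _ (fun z => ∃ g ∈ H, (g : A) = 1 + z * t k ∧ t k * z = 0) ?_
      ⟨1, H.one_mem, by simp, by simp⟩ fun i _ => ?_
    · rintro a b ⟨g, hg, e, e'⟩ ⟨g', hg', f, f'⟩
      refine ⟨g * g', H.mul_mem hg hg', ?_, by simp only [ex, e', f']⟩
      simp only [Units.val_mul, e, f, ex, rr f']
      abel
    · by_cases hi : i = k
      · exact ⟨1, H.one_mem, by simp [hi, h], by simp [hi, h]⟩
      · exact ⟨_, hH i k (t i * x) hi, xe_val F hi _, by simp only [ex, rr (F.ne (Ne.symm hi))]⟩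
  obtain ⟨g, hg, e, -⟩ := key
  simp only [← mul_assoc, ← Finset.sum_mul, F.sum, one_mul] at e
  exact (Units.ext e : g = tr x (t k) h) ▸ hg

theorem row_mem (k : Fin 5) {y : A} (h : y * s k = 0) : tr (s k) y h ∈ H := by
  have key : ∃ g ∈ H, (g : A) = 1 + s k * (∑ i, y * (s i * t i)) ∧
      (∑ i, y * (s i * t i)) * s k = 0 := by
    refine Finset.sum_induction _ (fun z => ∃ g ∈ H, (g : A) = 1 + s k * z ∧ z * s k = 0) ?_
      ⟨1, H.one_mem, by simp, by simp⟩ fun i _ => ?_
    · rintro a b ⟨g, hg, e, e'⟩ ⟨g', hg', f, f'⟩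
      refine ⟨g * g', H.mul_mem hg hg', ?_, by simp only [ex, e', f']⟩
      simp only [Units.val_mul, e, f, ex, rr e']
      abel
    · by_cases hi : i = k
      · exact ⟨1, H.one_mem, by simp [hi, rr h], by simp [hi, rr h]⟩
      · exact ⟨_, hH k i (y * s i) (Ne.symm hi), by rw [xe_val F (Ne.symm hi)]; simp only [ex],
          by simp only [ex, F.ne hi]⟩
  obtain ⟨g, hg, e, -⟩ := key
  simp only [← Finset.mul_sum, F.sum, mul_one] at e
  exact (Units.ext e : g = tr (s k) y h) ▸ hg

theorem tr_mem (k : Fin 5) {x y : A} (h : y * x = 0) (hx : t k * x = 0) (hy : y * s k = 0) :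
    tr x y h ∈ H := by
  have : tr x y h = tr x (t k) hx * tr (s k) y hy * tr x (t k) hx * tr (s k) y hy := by
    ext
    simp only [Units.val_mul, tr_val, ex, rr h, rr hx, rr hy, rr (F.self k)]
    apply c2; match_scalars <;> decide
  rw [this]
  exact H.mul_mem (H.mul_mem (H.mul_mem (col_mem F hH k hx) (row_mem F hH k hy)) (col_mem F hH k hx))
    (row_mem F hH k hy)

variable [Nontrivial A] (I : InfSum A) (hpi : PI A) (hc : CenterTriv A)
include I hpi hc

theorem supp_mem (k : Fin 5) (P : Aˣ) (h1 : P * s k = s k) (h2 : t k * P = t k) : P ∈ H := by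
  obtain ⟨j, hj⟩ := exists_ne k
  have h := F.self k
  obtain ⟨w, v, a1, a2, a3, a4, -⟩ := compl I hpi (one_mul 1) h (one_mul _) (mul_one _)
    (fun e => ne_zero_of (F.self j) (by
      rw [← one_mul (s j), ← e]; simp only [ex, F.ne hj.symm]))
  have h3 := inv_fix h1
  have p1 := P.mul_inv
  have p2 := P.inv_mul
  let u : Aˣ := ⟨v * P * w, v * ↑P⁻¹ * w,
    by simp only [ex, rr a1, rr a2, rr a3, rr h1, rr p1],
    by simp only [ex, rr a1, rr a2, rr a3, rr h3, rr p2]⟩
  have key : ∀ l : List Aˣ, (∀ z ∈ l, Tau z) → ∃ g ∈ H, (g : A) = w * l.prod * v + s k * t k := by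
    intro l
    induction l with
    | nil => exact fun _ => ⟨1, H.one_mem, by simp only [List.prod_nil, Units.val_one, ex, a2, add_assoc, aa]⟩
    | cons z l ih =>
      intro hl
      obtain ⟨g, hg, e⟩ := ih fun y hy => hl y (by simp [hy])
      obtain ⟨x, y, -, -, -, e', k1, -⟩ := hl z (by simp)
      refine ⟨tr (w * x) (y * v) (by simp only [ex, rr a1, k1]) * g, H.mul_mem (tr_mem F hH k _
        (by simp only [ex, rr a4]) (by simp only [ex, a3])) hg, ?_⟩
      simp only [List.prod_cons, Units.val_mul, tr_val, e, e', ex, rr a1, rr a3]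
  obtain ⟨l, -, hl, e⟩ := wd_seven I hpi hc u
  obtain ⟨g, hg, e'⟩ := key l hl
  have : g = P := by
    ext
    rw [e', e]
    show w * (v * P * w) * v + s k * t k = P
    simp only [ex, rr a2, rr h1, rr h2, rr h]
    apply c2; match_scalars <;> decide
  exact this ▸ hg

theorem move_mem (k : Fin 5) {x y c x' y' c' : A} (h1 : y * x = 1) (h2 : t k * x = 0)
    (h3 : y * s k = 0) (h4 : c ≠ 0) (h5 : t k * c = 0) (h6 : y * c = 0) (h1' : y' * x' = 1)
    (h2' : t k * x' = 0) (h3' : y' * s k = 0) (h4' : c' ≠ 0) (h5' : t k * c' = 0)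
    (h6' : y' * c' = 0) : ∃ g ∈ H, g * x = x' ∧ y' * g = y ∧ g * s k = s k := by
  have h := F.self k
  have ne : ∀ {x y c : A}, c ≠ 0 → t k * c = 0 → y * c = 0 → x * y ≠ 1 + s k * t k :=
    fun {x y c} a b d e => a (by simpa only [ex, b, d] using (congrArg (· * c) e).symm)
  obtain ⟨g, g1, g2, g3, g4⟩ := extend I hpi (f := 1 + s k * t k)
    (by simp only [ex, rr h, aa]) h1 (by simp only [ex, h2]) (by simp only [ex, rr h3])
    (ne h4 h5 h6) h1' (by simp only [ex, h2']) (by simp only [ex, rr h3']) (ne h4' h5' h6')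
  rw [← add_assoc, aa, zero_add] at g3 g4
  have e1 : g * s k = s k := by simpa only [ex, h] using congrArg (· * s k) g3
  have e2 : t k * g = t k := by simpa only [ex, rr h] using congrArg (t k * ·) g4
  exact ⟨g, supp_mem F hH I hpi hc k g e1 e2, g1, g2, e1⟩

theorem all_mem (g : Aˣ) : g ∈ H := by
  obtain ⟨p, z, q, q', e1, e2, e3⟩ := kill I hpi (t 4 * g * s 0)
  have n1 := ne_zero_of (F.self 1)
  have p2 := g.inv_mul
  have t01 : t 0 * s 1 = 0 := F.ne (by decide)
  have t04 : t 0 * s 4 = 0 := F.ne (by decide)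
  have t40 : t 4 * s 0 = 0 := F.ne (by decide)
  have t41 : t 4 * s 1 = 0 := F.ne (by decide)
  obtain ⟨h, hh, -, h2, -⟩ := move_mem F hH I hpi hc 0 (x := s 4 * z) (y := p * t 4)
    (by simp only [ex, rr (F.self 4), e1]) (by simp only [ex, rr t04]) (by simp only [ex, t40]) n1
    t01 (by simp only [ex, t41]) (F.self 4) t04 t40 n1 t01 t41
  have p3 := h.inv_mul
  have e4 : ∀ r, t 4 * (h * (g * (s 0 * (q * r)))) = 0 := fun r => by
    rw [← mul_assoc, h2]
    simpa only [ex] using congrArg (· * r) e3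
  obtain ⟨k, hk, k1, -⟩ := move_mem F hH I hpi hc 4 (x := h * g * s 0 * q * I.x0)
    (y := I.y0 * q' * t 0 * ↑g⁻¹ * ↑h⁻¹ * (1 + s 4 * t 4)) (c := h * g * s 0 * q * I.x1)
    (by simp only [ex, e4, rr p2, rr p3, rr (F.self 0), rr e2, I.h00]) (by simp only [ex, e4])
    (by simp only [ex, F.self 4, aa])
    (ne_zero_of (a := I.y1 * q' * t 0 * ↑g⁻¹ * ↑h⁻¹)
      (by simp only [ex, rr p2, rr p3, rr (F.self 0), rr e2, I.h11]))
    (by simp only [ex, e4]) (by simp only [ex, e4, rr p2, rr p3, rr (F.self 0), rr e2, I.h01])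
    (F.self 0) t40 t04 n1 t41 t01
  obtain ⟨m, hm, m1, -⟩ := move_mem F hH I hpi hc 4 (x := s 0 * q * I.x0) (y := I.y0 * q' * t 0)
    (by simp only [ex, rr (F.self 0), rr e2, I.h00]) (by simp only [ex, rr t40])
    (by simp only [ex, t04]) n1 t41 (by simp only [ex, t01]) (F.self 0) t40 t04 n1 t41 t01
  obtain ⟨P, hP⟩ : ∃ P, P = k * h * g * m⁻¹ := ⟨_, rfl⟩
  have P1 : P * s 0 = s 0 := by
    conv_lhs => rw [← m1]
    conv_rhs => rw [← k1]
    simp only [hP, Units.val_mul, ex, rr m.inv_mul]
  have P2 := inv_fix P1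
  have k0 : t 0 * (↑P⁻¹ + 1) * s 0 = 0 := by simp only [ex, P2, aa]
  have := supp_mem F hH I hpi hc 0 (tr _ _ k0 * P)
    (by simp only [Units.val_mul, tr_val, ex, P1, P2, F.self 0, aa])
    (by simp only [Units.val_mul, tr_val, ex, P.inv_mul, rr (F.self 0)]
        apply c2; match_scalars <;> decide)
  rw [H.mul_mem_cancel_left (row_mem F hH 0 k0), hP, H.mul_mem_cancel_right (H.inv_mem hm),
    H.mul_mem_cancel_left (H.mul_mem hk hh)] at this
  exact this

end Gen

/-- matrix coefficients -/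
def coef : A →+* Matrix (Fin 5) (Fin 5) A where
  toFun a := Matrix.of fun i j => t i * a * s j
  map_one' := by
    ext i j
    by_cases h : i = j
    · subst h; simp [F.self]
    · simp [h, F.ne h]
  map_mul' a b := by
    ext i j
    have : a * b = a * (∑ k, s k * t k) * b := by rw [F.sum, mul_one]
    simp only [Matrix.of_apply, Matrix.mul_apply, this, Finset.mul_sum, Finset.sum_mul, mul_assoc]
  map_zero' := by ext i j; simp
  map_add' a b := by ext i j; simp [mul_add, add_mul]

theorem coef_xe (i j : Fin 5) (r : A) :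
    Units.map (coef F : A →* Matrix (Fin 5) (Fin 5) A) (xe s t i j r) = tv i j r := by
  by_cases h : i = j
  · subst h
    simp [xe]
  ext k l
  rw [tv_val h, Units.coe_map, xe_val F h, MonoidHom.coe_coe, map_add, map_one, Matrix.add_apply,
    Matrix.add_apply]
  congr 1
  show t k * (s i * r * t j) * s l = _
  by_cases h1 : i = k
  · by_cases h2 : j = l
    · subst h1 h2; simp [mul_assoc, rr (F.self i), F.self j]
    · simp [mul_assoc, F.ne h2, h2]
  · simp [mul_assoc, rr (F.ne (Ne.symm h1)), h1]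

omit F

variable [Nontrivial A] (I : InfSum A) (hpi : PI A) (hc : CenterTriv A) (hfp : FPAlg A)
include I hpi hc hfp

theorem units_fp (L : Leav A) (hL : L.Tiny) : Group.IsFinitelyPresented Aˣ := by
  obtain ⟨s, t, F⟩ := exists_frame I
  have := charP_two A
  have := st_fp A hfp
  have hs := xe_isSt F
  let π : St (Fin 5) A →* Aˣ := St.lift (xe s t) (fun i a => by simp [xe])
    (fun i j a b h => hs.add h h) (fun i j k a b h1 h2 h3 => hs.mul h1 h2 h3)
    (fun i j k l a b h1 h2 h3 h4 => commutatorElement_eq_one_iff_commute.2 (hs.comm h1 h2 h3 h4))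
  have e : (Units.map (coef F : A →* Matrix (Fin 5) (Fin 5) A)).comp π = St.toGL :=
    St.hom_ext fun i j a _ => by
      rw [MonoidHom.comp_apply, St.lift_x, coef_xe, St.toGL_x]
  have hinj := toGL_injective (ι := Fin 5) I L hL (by simp)
  rw [← e, MonoidHom.coe_comp] at hinj
  exact Group.IsFinitelyPresented.equiv (MulEquiv.ofBijective π ⟨Function.Injective.of_comp hinj,
    all_mem F (H := π.range) (fun i j r _ => ⟨St.x i j r, St.lift_x ..⟩) I hpi hc⟩)

theorem units_TR : TR.{u} Aˣ := by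
  obtain ⟨s, t, F⟩ := exists_frame I
  obtain ⟨X, _, f, -, hf, -⟩ := hfp
  have := Fintype.ofFinite X
  refine st_TR (xe_isSt F) (by simp) 0 (by decide) (fun K hK => all_mem F hK I hpi hc)
    (fun x : X => f (FreeAlgebra.ι _ x)) (fun q q0 qw qa a => ?_)
    ((Set.finite_range (algebraMap (ZMod 2) A)).subset (by
      rintro _ ⟨n, rfl⟩
      exact ⟨n, by simp⟩))
  have key : ∀ a : A, a ∈ AddSubmonoid.closure
      (Set.range fun w : List X => (w.map fun x => f (FreeAlgebra.ι _ x)).prod) := by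
    intro a
    obtain ⟨z, rfl⟩ := hf a
    induction z using FreeAlgebra.induction with
    | grade0 r =>
      have : r = 0 ∨ r = 1 := by revert r; decide
      rcases this with rfl | rfl
      · simp
      · exact AddSubmonoid.subset_closure ⟨[], by simp⟩
    | grade1 x => exact AddSubmonoid.subset_closure ⟨[x], by simp⟩
    | add a b ha hb => rw [map_add]; exact add_mem ha hb
    | mul a b ha hb =>
      rw [map_mul]
      generalize f a = a at ha
      generalize f b = b at hb
      induction ha using AddSubmonoid.closure_induction with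
      | zero => simp
      | add a a' _ _ h h' => rw [add_mul]; exact add_mem h h'
      | mem a ha =>
        induction hb using AddSubmonoid.closure_induction with
        | zero => simp
        | add b b' _ _ h h' => rw [mul_add]; exact add_mem h h'
        | mem b hb =>
          obtain ⟨w, rfl⟩ := ha
          obtain ⟨w', rfl⟩ := hb
          exact AddSubmonoid.subset_closure ⟨w ++ w', by simp⟩
  induction key a using AddSubmonoid.closure_induction with
  | zero => exact q0
  | add a b _ _ h h' => exact qa _ _ h h'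
  | mem a ha => obtain ⟨w, rfl⟩ := ha; exact qw w

end Vale.Agent.N193T
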