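import Vale.Agent.N192T.Kaz

/-!
# P193: property (T) gives fixed points for isometric actions on Hilbert spaces
-/

namespace Vale.Agent.N193T

open Vale.Agent.N192T
open scoped InnerProductSpace

universe u

variable {G : Type} [Group G]

theorem near (h : TR.{0} G) : ∃ (S : Finset G) (ε : ℝ), 0 < ε ∧
    ∀ (H : Type) [NormedAddCommGroup H] [InnerProductSpace ℝ H] [CompleteSpace H]
      (π : G →* (H →ₗᵢ[ℝ] H)) (ξ : H) (δ : ℝ), 0 ≤ δ → (∀ s ∈ S, dp π s ξ ≤ ε * δ) →
      ∀ g, dp π g ξ ≤ 2 * δ := by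
  obtain ⟨S, ε, hε, h⟩ := h
  refine ⟨S, ε, hε, fun H _ _ _ π ξ δ hδ hs g => ?_⟩
  have hW : ∀ g, ∀ w ∈ (Fix π Set.univ)ᗮ, π g w ∈ (Fix π Set.univ)ᗮ := fun g w hw y hy => by
    rw [real_inner_comm, inner_ap, hy _ trivial, real_inner_comm]
    exact hw y hy
  let ρ : G →* ((Fix π Set.univ)ᗮ →ₗᵢ[ℝ] (Fix π Set.univ)ᗮ) :=
    { toFun := fun g => ⟨(π g).toLinearMap.restrict (hW g), fun w => (π g).norm_map w⟩
      map_one' := by ext w; exact ap_one π w
      map_mul' := fun g g' => by ext w; exact ap_mul π g g' w }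
  have hm : ξ - E π Set.univ ξ ∈ (Fix π Set.univ)ᗮ := Submodule.sub_starProjection_mem_orthogonal ξ
  have e : ∀ g, π g (ξ - E π Set.univ ξ) - (ξ - E π Set.univ ξ) = π g ξ - ξ := fun g => by
    rw [map_sub, E_mem π Set.univ ξ g trivial]; abel
  have hle : ‖ξ - E π Set.univ ξ‖ ≤ δ := by
    by_contra hlt
    rw [not_le] at hlt
    obtain ⟨η, h0, hη⟩ := h _ ρ ⟨_, hm⟩ (fun e => by
      have : ξ - E π Set.univ ξ = 0 := congrArg Subtype.val e
      rw [this, norm_zero] at hlt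
      linarith) fun s hs' => by
        show ‖π s (ξ - E π Set.univ ξ) - (ξ - E π Set.univ ξ)‖ ≤ ε * ‖ξ - E π Set.univ ξ‖
        rw [e]
        exact (hs s hs').trans (mul_le_mul_of_nonneg_left hlt.le hε.le)
    exact h0 (Subtype.ext (inner_self_eq_zero (𝕜 := ℝ).1
      (η.2 η fun g _ => congrArg Subtype.val (hη g))))
  rw [dp, ← e]
  refine (norm_sub_le _ _).trans ?_
  rw [(π g).norm_map]
  linarith

/-- positive kernels -/
def Pos (k : G → G → ℝ) : Prop :=
  ∀ (F : Finset G) (c : G → ℝ), 0 ≤ ∑ x ∈ F, ∑ y ∈ F, c x * c y * k x y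

section Schoenberg

variable {H : Type u} [NormedAddCommGroup H] [InnerProductSpace ℝ H] (b : G → H)

omit [Group G] in
theorem pos_pow (n : ℕ) : Pos fun x y => ⟪b x, b y⟫_ℝ ^ n := by
  induction n with
  | zero =>
    intro F c
    simp only [pow_zero, mul_one, ← Finset.sum_mul_sum]
    exact mul_self_nonneg _
  | succ n ih =>
    intro F c
    let W := Submodule.span ℝ (b '' F)
    have : FiniteDimensional ℝ W := FiniteDimensional.span_of_finite ℝ (F.finite_toSet.image b)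
    let e := stdOrthonormalBasis ℝ W
    have key : ∀ x ∈ F, ∀ y ∈ F, ⟪b x, b y⟫_ℝ = ∑ i, ⟪b x, e i⟫_ℝ * ⟪b y, e i⟫_ℝ :=
      fun x hx y hy => by
        have := e.sum_inner_mul_inner ⟨b x, Submodule.subset_span ⟨x, hx, rfl⟩⟩
          ⟨b y, Submodule.subset_span ⟨y, hy, rfl⟩⟩
        simp only [Submodule.coe_inner] at this
        rw [← this]
        exact Finset.sum_congr rfl fun i _ => by rw [real_inner_comm (b y)]
    have : ∑ x ∈ F, ∑ y ∈ F, c x * c y * ⟪b x, b y⟫_ℝ ^ (n + 1) = ∑ i, ∑ x ∈ F, ∑ y ∈ F,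
        (c x * ⟪b x, e i⟫_ℝ) * (c y * ⟪b y, e i⟫_ℝ) * ⟪b x, b y⟫_ℝ ^ n := by
      rw [Finset.sum_comm (s := Finset.univ)]
      refine Finset.sum_congr rfl fun x hx => ?_
      rw [Finset.sum_comm (s := Finset.univ)]
      refine Finset.sum_congr rfl fun y hy => ?_
      rw [pow_succ, ← mul_assoc]
      conv_lhs => arg 2; rw [key x hx y hy]
      rw [Finset.mul_sum]
      exact Finset.sum_congr rfl fun i _ => by ring
    rw [this]
    exact Finset.sum_nonneg fun i _ => ih F _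

omit [Group G] in
theorem pos_exp {t : ℝ} (ht : 0 ≤ t) : Pos fun x y => Real.exp (-(t * ‖b x - b y‖ ^ 2)) := by
  intro F c
  let d : G → ℝ := fun x => c x * Real.exp (-(t * ‖b x‖ ^ 2))
  have e : ∀ x y, c x * c y * Real.exp (-(t * ‖b x - b y‖ ^ 2)) =
      d x * d y * Real.exp (2 * t * ⟪b x, b y⟫_ℝ) := fun x y => by
    have : -(t * ‖b x - b y‖ ^ 2) =
        -(t * ‖b x‖ ^ 2) + -(t * ‖b y‖ ^ 2) + 2 * t * ⟪b x, b y⟫_ℝ := by
      rw [norm_sub_sq_real]; ring
    rw [this, Real.exp_add, Real.exp_add]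
    simp only [d]; ring
  simp only [e]
  have hs : HasSum (fun n : ℕ => ∑ x ∈ F, ∑ y ∈ F, d x * d y * ((2 * t * ⟪b x, b y⟫_ℝ) ^ n / n.factorial))
      (∑ x ∈ F, ∑ y ∈ F, d x * d y * Real.exp (2 * t * ⟪b x, b y⟫_ℝ)) :=
    hasSum_sum fun x _ => hasSum_sum fun y _ => HasSum.mul_left _ (by
      rw [Real.exp_eq_exp_ℝ]
      exact NormedSpace.expSeries_div_hasSum_exp _)
  refine hs.nonneg fun n => ?_
  have h1 := mul_nonneg (show 0 ≤ (2 * t) ^ n / n.factorial by positivity) (pos_pow b n F d)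
  refine h1.trans (le_of_eq ?_)
  simp only [Finset.mul_sum]
  exact Finset.sum_congr rfl fun x _ => Finset.sum_congr rfl fun y _ => by ring

end Schoenberg

/-- invariant positive kernels -/
structure PD (G : Type) [Group G] where
  k : G → G → ℝ
  symm : ∀ x y, k x y = k y x
  pos : Pos k
  inv : ∀ g x y, k (g * x) (g * y) = k x y

variable (K : PD G)

/-- the bilinear form of a kernel -/
noncomputable def PD.B : (G →₀ ℝ) →ₗ[ℝ] (G →₀ ℝ) →ₗ[ℝ] ℝ :=
  Finsupp.linearCombination ℝ fun x => Finsupp.linearCombination ℝ (K.k x)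

theorem PD.B_single (x y : G) (a c : ℝ) :
    K.B (Finsupp.single x a) (Finsupp.single y c) = a * c * K.k x y := by
  simp [PD.B, mul_assoc]

theorem PD.B_symm (f g : G →₀ ℝ) : K.B f g = K.B g f := by
  have : K.B = K.B.flip := by
    ext x y
    simp [K.B_single, K.symm x y]
  conv_lhs => rw [this]
  rfl

theorem PD.B_pos (f : G →₀ ℝ) : 0 ≤ K.B f f := by
  refine (K.pos f.support f).trans (le_of_eq ?_)
  simp only [PD.B, Finsupp.linearCombination_apply, Finsupp.sum, LinearMap.coe_sum,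
    Finset.sum_apply, LinearMap.smul_apply, smul_eq_mul, Finset.mul_sum, mul_assoc]

theorem PD.B_inv (g : G) (f f' : G →₀ ℝ) :
    K.B (Finsupp.lmapDomain ℝ ℝ (g * ·) f) (Finsupp.lmapDomain ℝ ℝ (g * ·) f') = K.B f f' := by
  have : K.B.compl₁₂ (Finsupp.lmapDomain ℝ ℝ (g * ·)) (Finsupp.lmapDomain ℝ ℝ (g * ·)) = K.B := by
    ext x y
    simp [K.B_single, K.inv]
  conv_rhs => rw [← this]
  rfl

/-- the pre-Hilbert space of a kernel -/
def PD.Pre (_ : PD G) : Type := G →₀ ℝ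

noncomputable instance : AddCommGroup K.Pre := inferInstanceAs (AddCommGroup (G →₀ ℝ))

noncomputable instance : Module ℝ K.Pre := inferInstanceAs (Module ℝ (G →₀ ℝ))

noncomputable instance PD.core : PreInnerProductSpace.Core ℝ K.Pre where
  inner f g := K.B f g
  conj_inner_symm f g := K.B_symm g f
  re_inner_nonneg f := K.B_pos f
  add_left f g h := LinearMap.map_add₂ K.B f g h
  smul_left f g r := LinearMap.map_smul₂ K.B r f g

noncomputable instance : SeminormedAddCommGroup K.Pre :=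
  InnerProductSpace.Core.toSeminormedAddCommGroup (𝕜 := ℝ)

noncomputable instance : InnerProductSpace ℝ K.Pre := .ofCore _

/-- translation -/
noncomputable def PD.sh (g : G) : K.Pre →ₗᵢ[ℝ] K.Pre :=
  ⟨Finsupp.lmapDomain ℝ ℝ (g * ·), fun f => by
    rw [norm_eq_sqrt_real_inner, norm_eq_sqrt_real_inner]
    exact congrArg _ (K.B_inv g f f)⟩

open UniformSpace in
/-- the representation of a kernel -/
noncomputable def PD.rep : G →* (Completion K.Pre →ₗᵢ[ℝ] Completion K.Pre) where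
  toFun g := ⟨(K.sh g).toContinuousLinearMap.completion.toLinearMap, fun w => by
    induction w using Completion.induction_on with
    | hp => exact isClosed_eq (by fun_prop) (by fun_prop)
    | ih f => simp⟩
  map_one' := by
    ext w
    induction w using Completion.induction_on with
    | hp => exact isClosed_eq (LinearIsometry.continuous _) (LinearIsometry.continuous _)
    | ih f =>
      refine (ContinuousLinearMap.completion_apply_coe _ f).trans (congrArg _ ?_)
      show Finsupp.mapDomain (1 * ·) f = f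
      simp only [one_mul]
      exact Finsupp.mapDomain_id
  map_mul' g h := by
    ext w
    induction w using Completion.induction_on with
    | hp => exact isClosed_eq (LinearIsometry.continuous _) (LinearIsometry.continuous _)
    | ih f =>
      refine (ContinuousLinearMap.completion_apply_coe _ f).trans ?_
      show _ = (K.sh g).toContinuousLinearMap.completion
        ((K.sh h).toContinuousLinearMap.completion f)
      rw [ContinuousLinearMap.completion_apply_coe, ContinuousLinearMap.completion_apply_coe]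
      refine congrArg _ ?_
      refine Eq.trans ?_ (Finsupp.mapDomain_comp (f := (h * ·)) (g := (g * ·)))
      show Finsupp.mapDomain (g * h * ·) f = _
      simp only [mul_assoc]
      rfl

/-- the base vector -/
noncomputable def PD.pt (x : G) : K.Pre := Finsupp.single x 1

theorem PD.dp_sq (g : G) : dp K.rep g (K.pt 1 : UniformSpace.Completion K.Pre) ^ 2 =
    2 * K.k 1 1 - 2 * K.k g 1 := by
  have e : K.rep g (K.pt 1 : UniformSpace.Completion K.Pre) = K.pt g := by
    refine (ContinuousLinearMap.completion_apply_coe _ _).trans (congrArg _ ?_)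
    show Finsupp.mapDomain (g * ·) (Finsupp.single 1 1) = Finsupp.single g 1
    simp
  have e2 : ∀ x y, ⟪K.pt x, K.pt y⟫_ℝ = K.k x y := fun x y => by
    exact (K.B_single x y 1 1).trans (by simp)
  rw [dp, e, ← UniformSpace.Completion.coe_sub, UniformSpace.Completion.norm_coe, norm_sub_sq_real,
    ← real_inner_self_eq_norm_sq, ← real_inner_self_eq_norm_sq, e2, e2, e2, ← K.inv g 1 1, mul_one]
  ring

variable {H : Type u} [NormedAddCommGroup H] [InnerProductSpace ℝ H]

theorem bdd (h : TR.{0} G) (b : G → H) (hb : ∀ g x y, ‖b (g * x) - b (g * y)‖ = ‖b x - b y‖) :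
    ∃ C, ∀ g, ‖b g - b 1‖ ≤ C := by
  obtain ⟨S, ε, hε, h⟩ := near h
  obtain ⟨C, hC⟩ := (S.finite_toSet.image fun s => ‖b s - b 1‖ ^ 2).bddAbove
  have hC' : ∀ s ∈ S, ‖b s - b 1‖ ^ 2 ≤ max C 1 := fun s hs =>
    (hC ⟨s, hs, rfl⟩).trans (le_max_left _ _)
  have h1 : 0 < max C 1 := lt_max_of_lt_right one_pos
  generalize max C 1 = D at hC' h1
  obtain ⟨t, ht⟩ : ∃ t, t = ε ^ 2 / (8 * D) := ⟨_, rfl⟩
  have t0 : 0 < t := by rw [ht]; positivity
  have tD : t * D = ε ^ 2 / 8 := by rw [ht]; field_simp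
  let K : PD G := ⟨fun x y => Real.exp (-(t * ‖b x - b y‖ ^ 2)), fun x y => by rw [norm_sub_rev],
    pos_exp b t0.le, fun g x y => by rw [hb]⟩
  have e : ∀ g, dp K.rep g (K.pt 1 : UniformSpace.Completion K.Pre) ^ 2 =
      2 - 2 * Real.exp (-(t * ‖b g - b 1‖ ^ 2)) := fun g => by
    rw [K.dp_sq]; simp [K]
  refine ⟨√(1 / t), fun g => Real.le_sqrt_of_sq_le ?_⟩
  have h2 := h _ K.rep (K.pt 1) (1 / 2) (by norm_num) (fun s hs => by
    refine (pow_le_pow_iff_left₀ (dp_nonneg _ _ _) (by positivity) two_ne_zero).1 ?_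
    rw [e]
    have a1 := Real.add_one_le_exp (-(t * ‖b s - b 1‖ ^ 2))
    have a2 := mul_le_mul_of_nonneg_left (hC' s hs) t0.le
    nlinarith) g
  have h3 := pow_le_pow_left₀ (dp_nonneg _ _ _) h2 2
  rw [e] at h3
  have a1 := Real.add_one_le_exp (t * ‖b g - b 1‖ ^ 2)
  have a2 : Real.exp (-(t * ‖b g - b 1‖ ^ 2)) * Real.exp (t * ‖b g - b 1‖ ^ 2) = 1 := by
    rw [← Real.exp_add]; simp
  have a3 := Real.exp_pos (t * ‖b g - b 1‖ ^ 2)
  rw [le_div_iff₀ t0]
  nlinarith

/-- a bounded set has a centre, fixed by the isometries that preserve the set -/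
theorem centre [CompleteSpace H] {X : Type*} [Nonempty X] (o : X → H) {C : ℝ}
    (hC : ∀ x, ‖o x‖ ≤ C) :
    ∃ p : H, ∀ φ : H → H, (∀ a b, ‖φ a - φ b‖ = ‖a - b‖) → (∀ x, ∃ y, o x = φ (o y)) → φ p = p := by
  let r : H → ℝ := fun p => ⨆ x, ‖p - o x‖ ^ 2
  have bd : ∀ p, BddAbove (Set.range fun x => ‖p - o x‖ ^ 2) := fun p =>
    ⟨(‖p‖ + C) ^ 2, by
      rintro _ ⟨x, rfl⟩
      exact pow_le_pow_left₀ (norm_nonneg _) ((norm_sub_le _ _).trans (by linarith [hC x])) 2⟩
  have le : ∀ p x, ‖p - o x‖ ^ 2 ≤ r p := fun p x => le_ciSup (bd p) x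
  have r0 : ∀ p, 0 ≤ r p := fun p => (sq_nonneg _).trans (le p (Classical.arbitrary X))
  have bb : BddBelow (Set.range r) := ⟨0, by rintro _ ⟨p, rfl⟩; exact r0 p⟩
  obtain ⟨m, hm⟩ : ∃ m, m = ⨅ p, r p := ⟨_, rfl⟩
  have ml : ∀ p, m ≤ r p := fun p => hm ▸ ciInf_le bb p
  have par : ∀ p q, ‖p - q‖ ^ 2 ≤ 2 * (r p - m) + 2 * (r q - m) := fun p q => by
    have : r ((1 / 2 : ℝ) • (p + q)) ≤ (r p + r q) / 2 - ‖p - q‖ ^ 2 / 4 := ciSup_le fun x => by
      have e1 : (1 / 2 : ℝ) • (p + q) - o x = (1 / 2 : ℝ) • ((p - o x) + (q - o x)) := by module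
      have e2 := parallelogram_law_with_norm ℝ (p - o x) (q - o x)
      rw [sub_sub_sub_cancel_right] at e2
      rw [e1, norm_smul, show ‖(1 / 2 : ℝ)‖ = 1 / 2 by norm_num]
      nlinarith [le p x, le q x]
    linarith [ml ((1 / 2 : ℝ) • (p + q))]
  obtain ⟨u, -, hu, hu'⟩ := exists_seq_tendsto_sInf (Set.range_nonempty r) bb
  choose z hz using hu'
  have hu2 : Filter.Tendsto (fun n => r (z n)) Filter.atTop (nhds m) := by
    simp only [hz]; rw [hm]; exact hu
  have hc : CauchySeq z := by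
    refine Metric.cauchySeq_iff'.2 fun ε hε => ?_
    obtain ⟨N, hN⟩ := Filter.eventually_atTop.1
      (hu2.eventually (gt_mem_nhds (show m < m + ε ^ 2 / 4 by linarith [pow_pos hε 2])))
    refine ⟨N, fun n hn => ?_⟩
    rw [dist_eq_norm]
    refine (pow_lt_pow_iff_left₀ (norm_nonneg _) hε.le two_ne_zero).1 ?_
    linarith [par (z n) (z N), hN n hn, hN N le_rfl]
  obtain ⟨p, hp⟩ := cauchySeq_tendsto_of_complete hc
  have hpm : r p ≤ m := ciSup_le fun x =>
    le_of_tendsto_of_tendsto' ((hp.sub_const (o x)).norm.pow 2) hu2 fun n => le (z n) x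
  refine ⟨p, fun φ h1 h2 => ?_⟩
  have : r (φ p) ≤ r p := ciSup_le fun x => by
    obtain ⟨y, e⟩ := h2 x
    rw [e, h1]
    exact le p y
  have h3 := par (φ p) p
  have h4 : ‖φ p - p‖ ^ 2 = 0 := le_antisymm (by linarith) (sq_nonneg _)
  exact sub_eq_zero.1 (norm_eq_zero.1 (pow_eq_zero_iff two_ne_zero |>.1 h4))

theorem fixed [CompleteSpace H] (h : TR.{0} G) (α : G → H → H)
    (h1 : ∀ g a b, ‖α g a - α g b‖ = ‖a - b‖) (h2 : ∀ g g' a, α (g * g') a = α g (α g' a)) :
    ∃ p, ∀ g, α g p = p := by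
  obtain ⟨C, hC⟩ := bdd h (fun g => α g 0) fun g x y => by rw [h2, h2, h1]
  obtain ⟨p, hp⟩ := centre (fun g => α g 0) (C := C + ‖α 1 0‖) fun g => by
    linarith [hC g, norm_sub_norm_le (α g 0) (α 1 0)]
  exact ⟨p, fun g => hp _ (h1 g) fun x => ⟨g⁻¹ * x, by rw [← h2, mul_inv_cancel_left]⟩⟩

end Vale.Agent.N193T
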