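import Vale.Agent.N193T.Hilb
import Vale.Agent.N193T.Defs

/-!
# P193: commensurated subsets and trees
-/

namespace Vale.Agent.N193T

open Vale.Agent.N192T
open scoped Pointwise ENNReal

universe u

variable {G : Type} [Group G]

theorem fixHilbert (h : TR.{0} G) : FixHilbert.{u} G := fun H _ _ _ α =>
  fixed h (fun g => α g) (fun g a b => by simpa only [dist_eq_norm] using (α g).dist_eq a b)
    fun g g' a => by rw [map_mul]; rfl

section L2

variable {X : Type u} [MulAction G X]

theorem p2 : 0 < (2 : ℝ≥0∞).toReal := by norm_num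

theorem mem_shift (g : G) (f : lp (fun _ : X => ℝ) 2) : Memℓp (fun x => f (g⁻¹ • x)) 2 :=
  memℓp_gen ((MulAction.toPerm g⁻¹).summable_iff (f := fun x => ‖f x‖ ^ (2 : ℝ≥0∞).toReal) |>.2
    ((lp.memℓp f).summable p2))

/-- affine action on square summable functions -/
noncomputable def aff (χ : X → ℝ) (h : ∀ g : G, Memℓp (fun x => χ (g⁻¹ • x) - χ x) 2) (g : G)
    (f : lp (fun _ : X => ℝ) 2) : lp (fun _ : X => ℝ) 2 :=
  ⟨fun x => f (g⁻¹ • x) + (χ (g⁻¹ • x) - χ x), (mem_shift g f).add (h g)⟩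

theorem aff_apply (χ : X → ℝ) (h : ∀ g : G, Memℓp (fun x => χ (g⁻¹ • x) - χ x) 2) (g : G)
    (f : lp (fun _ : X => ℝ) 2) (x : X) :
    aff χ h g f x = f (g⁻¹ • x) + (χ (g⁻¹ • x) - χ x) := rfl

theorem exists_inv_fun (hG : TR.{0} G) (χ : X → ℝ)
    (h : ∀ g : G, Memℓp (fun x => χ (g⁻¹ • x) - χ x) 2) :
    ∃ f : X → ℝ, {x | ¬ f x ^ 2 < 1 / 4}.Finite ∧
      ∀ (g : G) x, f (g⁻¹ • x) + χ (g⁻¹ • x) = f x + χ x := by
  obtain ⟨f, hf⟩ := fixed hG (aff χ h) (fun g a b => by
      rw [lp.norm_eq_tsum_rpow p2, lp.norm_eq_tsum_rpow p2,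
        ← (MulAction.toPerm g⁻¹).tsum_eq fun x => ‖(a - b) x‖ ^ (2 : ℝ≥0∞).toReal]
      simp only [lp.coeFn_sub, Pi.sub_apply, aff_apply, add_sub_add_right_eq_sub,
        MulAction.toPerm_apply])
    fun g g' a => by
      ext x
      simp only [aff_apply, mul_inv_rev, mul_smul]
      ring
  refine ⟨f, ?_, fun g x => ?_⟩
  · have h1 := ((lp.memℓp f).summable p2).tendsto_cofinite_zero.eventually
      (gt_mem_nhds (show (0 : ℝ) < 1 / 4 by norm_num))
    simpa only [Filter.eventually_cofinite, ENNReal.toReal_ofNat, Real.rpow_ofNat, Real.norm_eq_abs,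
      sq_abs] using h1
  · have := aff_apply χ h g f x
    rw [hf] at this
    linarith

end L2

theorem fw (h : TR.{0} G) : FW.{u} G := by
  intro X _ M hM
  obtain ⟨f, h1, h2⟩ := exists_inv_fun h (M.indicator 1) fun g =>
    (memℓp_zero ((hM g).subset fun x hx => by
      by_contra hn
      rw [Set.mem_symmDiff, Set.mem_smul_set_iff_inv_smul_mem] at hn
      apply hx
      by_cases h1 : g⁻¹ • x ∈ M <;> by_cases h2 : x ∈ M
      · simp [h1, h2]
      · exact absurd (Or.inl ⟨h1, h2⟩) hn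
      · exact absurd (Or.inr ⟨h2, h1⟩) hn
      · simp [h1, h2])).of_exponent_ge zero_le
  refine ⟨{x | 1 / 2 < f x + M.indicator 1 x}, fun g => ?_, h1.subset fun x hx hlt => ?_⟩
  · ext x
    rw [Set.mem_smul_set_iff_inv_smul_mem, Set.mem_ofPred_eq, Set.mem_ofPred_eq, h2]
  · rcases hx with ⟨h1, h2⟩ | ⟨h1, h2⟩
    · simp only [Set.mem_ofPred_eq, Set.indicator_of_mem h1, Pi.one_apply, not_lt] at h2
      nlinarith
    · simp only [Set.mem_ofPred_eq, Set.indicator_of_notMem h2] at h1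
      nlinarith

section Tree

variable {V : Type u} (T : SimpleGraph V)

/-- oriented edges pointing away from `w` -/
def away (w : V) : Set (V × V) :=
  {d | T.Adj d.1 d.2 ∧ (T.deleteEdges {s(d.1, d.2)}).Reachable d.1 w}

variable {T}

theorem away_walk {a b : V} (p : T.Walk a b) {d : V × V} (hd : s(d.1, d.2) ∉ p.edges) :
    d ∈ away T a ↔ d ∈ away T b := by
  have : (T.deleteEdges {s(d.1, d.2)}).Reachable a b :=
    ⟨p.toDeleteEdges _ fun e he h => hd (Set.mem_singleton_iff.1 h ▸ he)⟩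
  exact ⟨fun h => ⟨h.1, h.2.trans this⟩, fun h => ⟨h.1, h.2.trans this.symm⟩⟩

theorem away_fin (hT : T.IsTree) (a b : V) : (symmDiff (away T a) (away T b)).Finite := by
  obtain ⟨p⟩ := hT.connected a b
  refine ((p.support.finite_toSet).prod p.support.finite_toSet).subset fun d hd => ?_
  have : s(d.1, d.2) ∈ p.edges := by
    by_contra hn
    have := away_walk p hn
    rw [Set.mem_symmDiff] at hd
    tauto
  exact ⟨p.fst_mem_support_of_mem_edges this, p.snd_mem_support_of_mem_edges this⟩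

theorem away_map (φ : T ≃g T) {w : V} {d : V × V} (h : d ∈ away T w) :
    (φ d.1, φ d.2) ∈ away T (φ w) := by
  refine ⟨φ.map_adj_iff.2 h.1, h.2.map (G' := T.deleteEdges {s(φ d.1, φ d.2)}) ⟨φ, ?_⟩⟩
  intro a b hab
  simp only [SimpleGraph.deleteEdges_adj, Set.mem_singleton_iff, Sym2.eq_iff,
    φ.map_adj_iff, φ.injective.eq_iff] at hab ⊢
  exact hab

theorem away_step (hT : T.IsTree) {a v : V} (h : v ≠ a) :
    ∃ w, T.Adj w v ∧ (w, v) ∈ away T a ∧ (v, w) ∉ away T a ∧ (v, w) ∉ away T w ∧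
      (w, v) ∉ away T v := by
  obtain ⟨p, hp⟩ := (hT.connected v a).exists_isPath
  cases p with
  | nil => exact absurd rfl h
  | @cons _ w _ hvw q =>
    have hb : ¬ (T.deleteEdges {s(v, w)}).Reachable v w :=
      (SimpleGraph.isBridge_iff.1 (SimpleGraph.isAcyclic_iff_forall_adj_isBridge.1 hT.isAcyclic hvw))
    have hq : s(w, v) ∉ q.edges := fun he =>
      ((SimpleGraph.Walk.cons_isPath_iff _ _).1 hp).2 (q.snd_mem_support_of_mem_edges he)
    have h1 : (w, v) ∈ away T a := (away_walk q (d := (w, v)) hq).1 ⟨hvw.symm, .refl _⟩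
    refine ⟨w, hvw.symm, h1, fun h2 => hb ?_, fun h2 => hb h2.2, fun h2 => hb ?_⟩
    · have h3 := h1.2
      rw [Sym2.eq_swap] at h3
      exact h2.2.trans h3.symm
    · have h3 := h2.2
      rw [Sym2.eq_swap] at h3
      exact h3.symm

end Tree

theorem fixed_of_finite {X : Type u} [MulAction G X] [Infinite G] [IsSimpleGroup G] {v : X}
    (h : (MulAction.orbit G v).Finite) (g : G) : g • v = v := by
  have hfi : (MulAction.stabilizer G v).FiniteIndex := by
    rw [Subgroup.finiteIndex_iff, MulAction.index_stabilizer]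
    exact Set.ncard_ne_zero_of_mem (MulAction.mem_orbit_self v) h
  rcases (MulAction.stabilizer G v).normalCore_normal.eq_bot_or_eq_top with hb | hb
  · have : (⊥ : Subgroup G).FiniteIndex := hb ▸ inferInstance
    have h0 := this.index_ne_zero
    rw [Subgroup.index_bot, Nat.card_eq_zero_of_infinite] at h0
    exact absurd rfl h0
  · exact (MulAction.stabilizer G v).normalCore_le (hb ▸ Subgroup.mem_top g)

theorem min_finite {V : Type u} {T : SimpleGraph V} (hT : T.IsTree) {a : V} {N : Set (V × V)}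
    (hD : (symmDiff (away T a) N).Finite) :
    {v | ∀ w, (symmDiff (away T v) N).ncard ≤ (symmDiff (away T w) N).ncard}.Finite := by
  have fin : ∀ v, (symmDiff (away T v) N).Finite := fun v =>
    ((away_fin hT v a).union hD).subset (symmDiff_triangle _ _ _)
  refine (((hD.image Prod.fst).union (hD.image Prod.snd)).insert a).subset fun v hv => ?_
  by_contra hn
  simp only [Set.mem_insert_iff, Set.mem_union, not_or] at hn
  obtain ⟨w, hw, h1, h2, h3, h4⟩ := away_step hT hn.1
  have n1 : (w, v) ∈ N := by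
    by_contra h5
    exact hn.2.2 ⟨(w, v), Or.inl ⟨h1, h5⟩, rfl⟩
  have n2 : (v, w) ∉ N := fun h5 => hn.2.1 ⟨(v, w), Or.inr ⟨h5, h2⟩, rfl⟩
  have w1 : (w, v) ∈ away T w := ⟨hw, .refl _⟩
  refine absurd (hv w) (not_le.2 (Set.ncard_lt_ncard ⟨fun d hd => ?_, fun hs => ?_⟩ (fin v)))
  · by_cases hd' : s(d.1, d.2) ∈ hw.toWalk.edges
    · simp only [SimpleGraph.Adj.toWalk, SimpleGraph.Walk.edges_cons, SimpleGraph.Walk.edges_nil,
        List.mem_singleton, Sym2.eq_iff] at hd'
      obtain ⟨d1, d2⟩ := d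
      rcases hd' with ⟨rfl, rfl⟩ | ⟨rfl, rfl⟩
      · exact hd.elim (fun h => absurd n1 h.2) fun h => absurd w1 h.2
      · exact hd.elim (fun h => absurd h.1 h3) fun h => absurd h.1 n2
    · have := away_walk hw.toWalk hd'
      exact hd.elim (fun h => Or.inl ⟨this.1 h.1, h.2⟩) fun h => Or.inr ⟨h.1, mt this.2 h.2⟩
  · exact (hs (Or.inr ⟨n1, h4⟩)).elim (fun h => h.2 n1) fun h => h.2 w1

theorem fixTree [Infinite G] [IsSimpleGroup G] (h : FW.{u} G) : FixTree.{u} G := by
  intro V T hT α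
  let : MulAction G V :=
    { smul := fun g v => α g v
      one_smul := fun v => by show α 1 v = v; rw [map_one]; rfl
      mul_smul := fun g g' v => by show α (g * g') v = _; rw [map_mul]; rfl }
  have e : ∀ (g : G) (w : V), g • away T w = away T (g • w) := fun g w => by
    ext d
    rw [Set.mem_smul_set_iff_inv_smul_mem]
    refine ⟨fun hd => ?_, fun hd => ?_⟩
    · have : g • g⁻¹ • d ∈ away T (g • w) := away_map (α g) hd
      rwa [smul_inv_smul] at this
    · have : g⁻¹ • d ∈ away T (g⁻¹ • g • w) := away_map (α g⁻¹) hd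
      rwa [inv_smul_smul] at this
  obtain ⟨a⟩ := hT.connected.nonempty
  obtain ⟨N, hN, hD⟩ := h (V × V) (away T a) fun g => by rw [e]; exact away_fin hT _ _
  have : Nonempty V := ⟨a⟩
  let f : V → ℕ := fun v => (symmDiff (away T v) N).ncard
  refine ⟨Function.argmin f, fixed_of_finite (G := G) ((min_finite hT hD).subset ?_)⟩
  rintro _ ⟨g, rfl⟩ w
  refine le_of_eq_of_le ?_ (Function.argmin_le f w)
  show (symmDiff (away T (g • _)) N).ncard = (symmDiff (away T _) N).ncard
  conv_lhs => rw [← e, ← hN g, ← Set.smul_set_symmDiff, Set.ncard_smul_set]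

end Vale.Agent.N193T
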