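import Vale.Agent.N193T.Frame
import Vale.Agent.N193T.Tree
import Vale.Agent.P193.H870.Main

/-!
# P193: assembly
-/

namespace Vale.Agent.N193T

open Vale.Agent.P193.BH Vale.Agent.N192T TensorProduct

universe u v

theorem finPres_iff {K : Type} [Group K] : FinPres K ↔ Group.IsFinitelyPresented K := by
  constructor
  · rintro ⟨n, R, ⟨e⟩⟩
    have : Group.IsFinitelyPresented
        (FreeGroup (Fin n) ⧸ Subgroup.normalClosure (R : Set (FreeGroup (Fin n)))) :=
      Group.IsFinitelyPresented.quotient _ ⟨R, R.finite_toSet, rfl⟩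
    exact Group.IsFinitelyPresented.equiv e.symm
  · intro h
    obtain ⟨n, s, hs, ⟨e⟩⟩ := Group.IsFinitelyPresented.exists_mulEquiv_presentedGroup (G := K)
    obtain ⟨R, rfl⟩ := hs.exists_finset_coe
    exact ⟨n, R, ⟨e⟩⟩

theorem wordValue_eq {G : Type*} [Group G] {n : ℕ} (S : Fin n → G) (w : List (Fin n × Bool)) :
    wordValue S w = FreeGroup.lift S (FreeGroup.mk w) := by
  rw [FreeGroup.lift_mk, wordValue]
  congr 2
  ext p
  cases p.2 <;> rfl

theorem units_infinite {A : Type} [Ring A] [Algebra (ZMod 2) A] [Nontrivial A] (I : InfSum A) :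
    Infinite Aˣ := by
  have : Infinite A := by
    rw [← not_finite_iff_infinite]
    intro hf
    obtain ⟨z, hz⟩ := Finite.surjective_of_injective (f := (I.x0 * ·))
      (fun a b h => by simpa only [rr I.h00, one_mul] using congrArg (I.y0 * ·) h) I.x1
    have := I.h11
    rw [← hz, ← mul_assoc, I.h10, zero_mul] at this
    exact zero_ne_one this
  refine Infinite.of_injective (fun r : A => tr (I.x0 * r) I.y1 (by simp only [ex, rr I.h10]))
    fun a b h => ?_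
  have := congrArg (fun g : Aˣ => I.y0 * g * I.x1) h
  simpa only [tr_val, ex, rr I.h00, I.h11, I.h01] using this

theorem main {n : ℕ} {G : Type u} [Group G] (f : Fin n → G)
    (hf : Subgroup.closure (Set.range f) = ⊤) (hdec : DecidableWordProblem f) :
    ∃ (K : Type) (_ : Group K), FinPres K ∧ IsSimpleGroup K ∧
      (∃ ψ : G →* K, Function.Injective ψ) ∧ Infinite K ∧
      Kazhdan.{v} K ∧ FixHilbert.{v} K ∧ FW.{v} K ∧ FixTree.{v} K ∧
      (∃ t : K, orderOf t = 2 ∧ ∀ h, Wd (IsConj t) 7 h) ∧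
      ∀ g : K, g ≠ 1 → ∀ h, Wd (fun s => IsConj g s ∨ IsConj g⁻¹ s) 14 h := by
  obtain ⟨T, Q, _, _, M, tgt, hM⟩ := exists_machine f
    (by simpa only [ev_eq, DecidableWordProblem, wordValue_eq] using hdec)
  obtain ⟨R, _, _, hRn, hRfp, ⟨S, hS⟩, ⟨ψ, hψ⟩⟩ := machineRing f hf M tgt hM
  obtain ⟨A, _, _, hAn, hAfp, ⟨CA, hCA⟩, ⟨IA⟩⟩ := houghtonAlg
  obtain ⟨L, _, _, hLn, hLfp, ⟨CL, hCL⟩, ⟨l, hl⟩⟩ := leavitt
  obtain ⟨C, hC⟩ := hCA.tensor hCL
  have : Nontrivial (A ⊗[ZMod 2] L) := nontrivial_tensor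
  have : Nontrivial (R ⊗[ZMod 2] (A ⊗[ZMod 2] L)) := nontrivial_tensor
  obtain ⟨l1, hl1⟩ := (l.tiny_of_adjoin hl).tensor (R := A)
  obtain ⟨l2, hl2⟩ := hl1.tensor (R := R)
  obtain ⟨I1⟩ := InfSum.tensor_right (R := L) IA
  obtain ⟨I⟩ := InfSum.tensor_left (R := R) I1
  obtain ⟨ψ', hψ'⟩ := units_tensor (R := R) (B := A ⊗[ZMod 2] L)
  have hpi : PI (R ⊗[ZMod 2] (A ⊗[ZMod 2] L)) := hS.pi_tensor hC.pi
  have hc : CenterTriv (R ⊗[ZMod 2] (A ⊗[ZMod 2] L)) := hS.center_tensor hC.center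
  have hfp : FPAlg (R ⊗[ZMod 2] (A ⊗[ZMod 2] L)) := hRfp.tensor (hAfp.tensor hLfp)
  have h1 := units_simple I hpi hc
  have h2 := units_infinite I
  have h3 := units_TR.{0} I hpi hc hfp
  exact ⟨_, inferInstance, finPres_iff.2 (units_fp I hpi hc hfp l2 hl2), h1,
    ⟨ψ'.comp ψ, hψ'.comp hψ⟩, h2, (units_TR I hpi hc hfp).kazhdan, fixHilbert h3, fw h3,
    fixTree (fw h3), wd_invol I hpi hc, fun g hg => wd_unif I hpi hc hg⟩

theorem converse {n : ℕ} {G : Type u} [Group G] (f : Fin n → G) {K : Type} [Group K]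
    (h1 : FinPres K) (h2 : IsSimpleGroup K) {ψ : G →* K} (hψ : Function.Injective ψ) :
    DecidableWordProblem f := by
  simpa only [DecidableWordProblem, wordValue_eq] using
    Vale.Agent.P193.H870.converse f K h2 (finPres_iff.1 h1) ψ hψ

end Vale.Agent.N193T
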