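import Vale.Agent.P193.Bdl.B1
import Vale.Agent.N193T.Defs

/-!
# P193: the unit group of a purely infinite ring with an infinite sum structure
-/

namespace Vale.Agent.N193T

open Vale.Agent.P193.BH

variable {A : Type} [Ring A] [Algebra (ZMod 2) A]

theorem c2 {a b : A} (h : (1 : ZMod 2) • a = (1 : ZMod 2) • b) : a = b := by simpa using h

omit [Algebra (ZMod 2) A] in
theorem rr {a x c : A} (h : a * x = c) : a * x = c ∧ ∀ z, a * (x * z) = c * z :=
  ⟨h, fun z => by rw [← mul_assoc, h]⟩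

omit [Algebra (ZMod 2) A] in
theorem ex : (∀ a b c : A, a * (b + c) = a * b + a * c) ∧
    (∀ a b c : A, (a + b) * c = a * c + b * c) ∧ (∀ a b c : A, a * b * c = a * (b * c)) ∧
    (∀ a : A, a * 1 = a) ∧ (∀ a : A, 1 * a = a) ∧ (∀ a : A, a * 0 = 0) ∧ (∀ a : A, 0 * a = 0) ∧
    (∀ a : A, a + 0 = a) ∧ (∀ a : A, 0 + a = a) :=
  ⟨mul_add, add_mul, mul_assoc, mul_one, one_mul, mul_zero, zero_mul, add_zero, zero_add⟩

theorem aa (a : A) : a + a = 0 := by apply c2; match_scalars; decide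

theorem eq_of_add {a b : A} (h : a + b = 0) : a = b := by
  rw [← add_zero a, ← aa b, ← add_assoc, h, zero_add]

section Swindle

variable (I : InfSum A)

omit [Algebra (ZMod 2) A] in
theorem y0_phi (a : A) : I.y0 * I.φ a = a * I.y0 := by
  rw [I.hφ]; simp only [ex, rr I.h00, rr I.h01]

omit [Algebra (ZMod 2) A] in
theorem y1_phi (a : A) : I.y1 * I.φ a = I.φ a * I.y1 := by
  conv_lhs => rw [I.hφ]
  simp only [ex, rr I.h11, rr I.h10]

omit [Algebra (ZMod 2) A] in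
theorem phi_x0 (a : A) : I.φ a * I.x0 = I.x0 * a := by
  rw [I.hφ]; simp only [ex, rr I.h00, rr I.h10]

omit [Algebra (ZMod 2) A] in
theorem phi_x1 (a : A) : I.φ a * I.x1 = I.x1 * I.φ a := by
  conv_lhs => rw [I.hφ]
  simp only [ex, rr I.h11, rr I.h01]

include I in
/-- every nonzero idempotent is equivalent to `1` -/
theorem idem_equiv (hpi : PI A) {e : A} (he : e * e = e) (h0 : e ≠ 0) :
    ∃ x y : A, y * x = 1 ∧ x * y = e := by
  obtain ⟨p, q, h⟩ := hpi e h0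
  obtain ⟨a, b, hba, hea, hbe⟩ : ∃ a b : A, b * a = 1 ∧ e * a = a ∧ b * e = b :=
    ⟨e * q, p * e, by simpa only [ex, rr he] using h, by simp only [rr he],
      by simp only [ex, rr he]⟩
  obtain ⟨r, hr⟩ : ∃ r, r = e + a * b := ⟨_, rfl⟩
  have hrr : r * r = r := by
    simp only [hr, ex, rr he, rr hba, rr hea, rr hbe]; apply c2; match_scalars <;> decide
  have hbr : b * r = 0 := by simp only [hr, ex, rr hba, rr hbe, aa]
  have hra : r * a = 0 := by simp only [hr, ex, rr hba, rr hea, aa]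
  have hff : I.φ r * I.φ r = I.φ r := by rw [← map_mul, hrr]
  have hφ := I.hφ r
  have h1 := y0_phi I r
  have h2 := y1_phi I r
  have h3 := phi_x0 I r
  have h4 := phi_x1 I r
  generalize I.φ r = f at *
  refine ⟨a * (f * I.y1 + 1 + f) + r * I.y0, (I.x1 * f + 1 + f) * b + I.x0 * r, ?_, ?_⟩
  · have : I.x0 * (r * I.y0) = I.x1 * (f * I.y1) + f := by
      apply eq_of_add
      rw [← add_assoc, ← mul_assoc, ← mul_assoc, ← hφ, aa]
    simp only [ex, rr hba, rr hbr, rr hra, rr hrr, rr hff, this]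
    apply c2; match_scalars <;> decide
  · have : e = a * b + r := by rw [hr]; apply c2; match_scalars <;> decide
    rw [this]
    simp only [ex, rr hrr, rr hff, rr h1, rr h2, rr h3, rr h4, rr I.h00, rr I.h01, rr I.h10,
      rr I.h11]
    apply c2; match_scalars <;> decide

include I in
theorem compl (hpi : PI A) {f x y : A} (hf : f * f = f) (hyx : y * x = 1) (hx : f * x = x)
    (hy : y * f = y) (hne : x * y ≠ f) :
    ∃ u v : A, v * u = 1 ∧ u * v = f + x * y ∧ v * x = 0 ∧ y * u = 0 ∧ f * u = u ∧ v * f = v := by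
  obtain ⟨u, v, h1, h2⟩ := idem_equiv I hpi (e := f + x * y)
    (by simp only [ex, rr hf, rr hyx, rr hx, rr hy]; apply c2; match_scalars <;> decide)
    (fun h => hne (eq_of_add h).symm)
  have hu : u = (f + x * y) * u := by rw [← h2, mul_assoc, h1, mul_one]
  have hv : v = v * (f + x * y) := by rw [← h2, ← mul_assoc, h1, one_mul]
  refine ⟨u, v, h1, h2, ?_, ?_, ?_, ?_⟩
  · rw [hv]; simp only [ex, rr hyx, rr hx, aa]
  · rw [hu]; simp only [ex, rr hyx, rr hy, aa]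
  · conv_lhs => rw [hu]
    conv_rhs => rw [hu]
    simp only [ex, rr hf, rr hx]
  · conv_lhs => rw [hv]
    conv_rhs => rw [hv]
    simp only [ex, rr hf, rr hy]

include I in
/-- an isomorphism between proper summands of `f A` extends to a unit supported on `f` -/
theorem extend (hpi : PI A) {f x y x' y' : A} (hf : f * f = f) (hyx : y * x = 1) (hx : f * x = x)
    (hy : y * f = y) (hne : x * y ≠ f) (hyx' : y' * x' = 1) (hx' : f * x' = x') (hy' : y' * f = y')
    (hne' : x' * y' ≠ f) :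
    ∃ h : Aˣ, h * x = x' ∧ y' * h = y ∧ h * (1 + f) = 1 + f ∧ (1 + f) * h = 1 + f := by
  obtain ⟨u, v, a1, a2, a3, a4, a5, a6⟩ := compl I hpi hf hyx hx hy hne
  obtain ⟨u', v', b1, b2, b3, b4, b5, b6⟩ := compl I hpi hf hyx' hx' hy' hne'
  refine ⟨⟨x' * y + u' * v + (1 + f), x * y' + u * v' + (1 + f), ?_, ?_⟩, ?_, ?_, ?_, ?_⟩ <;>
  simp only [ex, rr hf, rr hyx, rr hx, rr hy, rr hyx', rr hx', rr hy', rr a1, a2, rr a3, rr a4,
    rr a5, rr a6, rr b1, b2, rr b3, rr b4, rr b5, rr b6] <;>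
  apply c2 <;> match_scalars <;> decide

end Swindle

/-- the transvection `1 + x y` -/
def tr (x y : A) (h : y * x = 0) : Aˣ :=
  ⟨1 + x * y, 1 + x * y, by simp only [ex, rr h]; apply c2; match_scalars <;> decide,
    by simp only [ex, rr h]; apply c2; match_scalars <;> decide⟩

theorem tr_val (x y : A) (h : y * x = 0) : (tr x y h : A) = 1 + x * y := rfl

theorem tr_inv (x y : A) (h : y * x = 0) : (tr x y h)⁻¹ = tr x y h := rfl

/-- the standard involutions -/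
def Tau (t : Aˣ) : Prop :=
  ∃ x y a b c : A, (t : A) = 1 + x * y ∧ y * x = 0 ∧ a * x = 1 ∧ y * b = 1 ∧ c ≠ 0 ∧ a * c = 0 ∧
    y * c = 0

theorem Tau.isConj (I : InfSum A) (hpi : PI A) {t t' : Aˣ} (h : Tau t) (h' : Tau t') :
    ∃ k : Aˣ, k * t * k⁻¹ = t' := by
  have key : ∀ {x y a b c : A}, y * x = 0 → a * x = 1 → y * b = 1 → c ≠ 0 → a * c = 0 →
      y * c = 0 → ∃ X Y : A, Y * X = 1 ∧ X * Y ≠ 1 ∧ X * I.x0 = x ∧ I.y1 * Y = y := by
    intro x y a b c h1 h2 h3 h4 h5 h6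
    refine ⟨x * I.y0 + (b + x * a * b) * I.y1, I.x0 * a + I.x1 * y, ?_, fun e => h4 ?_, ?_, ?_⟩
    · rw [← I.hs]
      simp only [ex, rr h1, rr h2, rr h3]; apply c2; match_scalars <;> decide
    · rw [← one_mul c, ← e]
      simp only [ex, rr h5, rr h6]
    · simp only [ex, rr I.h00, rr I.h10]
    · simp only [ex, rr I.h11, rr I.h10]
  obtain ⟨x, y, a, b, c, e, h1, h2, h3, h4, h5, h6⟩ := h
  obtain ⟨x', y', a', b', c', e', h1', h2', h3', h4', h5', h6'⟩ := h'
  obtain ⟨X, Y, p1, p2, p3, p4⟩ := key h1 h2 h3 h4 h5 h6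
  obtain ⟨X', Y', q1, q2, q3, q4⟩ := key h1' h2' h3' h4' h5' h6'
  obtain ⟨k, k1, k2, -⟩ := extend I hpi (one_mul 1) p1 (one_mul _) (mul_one _) p2 q1 (one_mul _)
    (mul_one _) q2
  refine ⟨k, ?_⟩
  rw [mul_inv_eq_iff_eq_mul]
  ext
  rw [Units.val_mul, Units.val_mul, e, e', ← p3, ← p4, ← q3, ← q4]
  simp only [ex, rr k1, rr k2]

theorem Tau.sq {t : Aˣ} (h : Tau t) : t * t = 1 := by
  obtain ⟨x, y, a, b, c, e, h1, -⟩ := h
  ext
  rw [Units.val_mul, e]
  exact (tr x y h1).val_inv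

omit [Algebra (ZMod 2) A] in
theorem Tau.ne_one [Nontrivial A] {t : Aˣ} (h : Tau t) : t ≠ 1 := by
  obtain ⟨x, y, a, b, c, e, -, h2, h3, -⟩ := h
  rintro rfl
  have h0 : x * y = 0 := by simpa using e
  have : a * (x * y) * b = 1 := by simp only [ex, rr h2, h3]
  rw [h0] at this
  simp at this

theorem tau_swap {x a x' a' c : A} (h1 : a * x = 1) (h2 : a' * x' = 1) (h3 : a * x' = 0)
    (h4 : a' * x = 0) (hc : c ≠ 0) (h5 : a * c = 0) (h6 : a' * c = 0) :
    ∃ t : Aˣ, Tau t ∧ (t : A) = 1 + (x + x') * (a + a') :=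
  have h : (a + a') * (x + x') = 0 := by simp only [ex, h1, h2, h3, h4, aa]
  ⟨tr _ _ h, ⟨_, _, a, x, c, rfl, h, by simp only [ex, h1, h3], by simp only [ex, h1, h4], hc, h5,
    by simp only [ex, h5, h6]⟩, rfl⟩

theorem Wd.one {K : Type} [Group K] {P : K → Prop} {g : K} (h : P g) : Wd P 1 g :=
  ⟨[g], le_rfl, by simpa using h, by simp⟩

theorem Wd.mul {K : Type} [Group K] {P : K → Prop} {m n : ℕ} {g h : K} (hg : Wd P m g)
    (hh : Wd P n h) : Wd P (m + n) (g * h) := by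
  obtain ⟨l, a, b, rfl⟩ := hg
  obtain ⟨l', a', b', rfl⟩ := hh
  refine ⟨l ++ l', by simpa using add_le_add a a', fun t ht => ?_, List.prod_append⟩
  rcases List.mem_append.1 ht with h | h
  exacts [b t h, b' t h]

/-- `diag (b, b⁻¹, 1)` is a product of two standard involutions -/
theorem wd_diag {x a x' a' c : A} (h1 : a * x = 1) (h2 : a' * x' = 1) (h3 : a * x' = 0)
    (h4 : a' * x = 0) (hc : c ≠ 0) (h5 : a * c = 0) (h6 : a' * c = 0) (b : Aˣ) :
    ∃ d : Aˣ, Wd Tau 2 d ∧ (d : A) = 1 + x * (b + 1) * a + x' * (↑b⁻¹ + 1) * a' := by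
  have e1 := b.mul_inv
  have e2 := b.inv_mul
  obtain ⟨t, ht, et⟩ := tau_swap h1 h2 h3 h4 hc h5 h6
  obtain ⟨s, hs, es⟩ := tau_swap (x := x * b) (a := ↑b⁻¹ * a) (c := c)
    (by simp only [ex, rr h1, e2]) h2 (by simp only [ex, h3]) (by simp only [ex, rr h4]) hc
    (by simp only [ex, h5]) h6
  refine ⟨s * t, (Wd.one hs).mul (Wd.one ht), ?_⟩
  rw [Units.val_mul, es, et]
  simp only [ex, rr h1, rr h2, rr h3, rr h4, rr e1]
  apply c2; match_scalars <;> decide

omit [Algebra (ZMod 2) A] in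
theorem inv_fix {P : Aˣ} {x : A} (h : P * x = x) : (↑P⁻¹ : A) * x = x := by
  conv_lhs => rw [← h]
  rw [Units.inv_mul_cancel_left]

omit [Algebra (ZMod 2) A] in
theorem ne_zero_of {a x : A} [Nontrivial A] (h : a * x = 1) : x ≠ 0 := by
  rintro rfl
  simp at h

variable [Nontrivial A] (I : InfSum A) (hpi : PI A)
include I hpi

/-- a unit with proper support is a product of four standard involutions -/
theorem wd_supp {x a : A} (h : a * x = 1) (hne : x * a ≠ 1) (P : Aˣ) (h1 : P * x = x)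
    (h2 : a * P = a) : Wd Tau 4 P := by
  obtain ⟨w, v, a1, a2, a3, a4, -⟩ := compl I hpi (one_mul 1) h (one_mul _) (mul_one _) hne
  have h3 := inv_fix h1
  have p1 := P.mul_inv
  have p2 := P.inv_mul
  let u : Aˣ := ⟨v * P * w, v * ↑P⁻¹ * w,
    by simp only [ex, rr a1, rr a2, rr a3, rr h1, rr p1],
    by simp only [ex, rr a1, rr a2, rr a3, rr h3, rr p2]⟩
  have hu : w * (u + 1) * v = P + 1 := by
    show w * (v * P * w + 1) * v = P + 1
    simp only [ex, rr a2, rr h1, rr h2, rr h]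
    apply c2; match_scalars <;> decide
  let b : Aˣ := Units.map (I.φ : A →* A) u
  have b0 : I.y0 * b = u * I.y0 := y0_phi I u
  have b1 : I.y1 * b = b * I.y1 := y1_phi I u
  have e1 := b.mul_inv
  have e2 := b.inv_mul
  have hc : x * I.x1 * I.x1 ≠ 0 :=
    ne_zero_of (a := I.y1 * I.y1 * a) (by simp only [ex, rr h, rr I.h11])
  obtain ⟨d, hd, ed⟩ := wd_diag (x := w * I.y0 + x * I.x0 * I.y1) (a := I.x0 * v + I.x1 * I.y0 * a)
    (x' := x * I.x1 * I.x0) (a' := I.y0 * I.y1 * a)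
    (by rw [← I.hs]; simp only [ex, rr h, rr a1, rr a3, rr a4, rr I.h00])
    (by simp only [ex, rr h, rr I.h00, rr I.h11])
    (by simp only [ex, rr h, rr a3, rr I.h01]) (by simp only [ex, rr h, rr a4, rr I.h10]) hc
    (by simp only [ex, rr h, rr a3, rr I.h01]) (by simp only [ex, rr h, rr I.h11, rr I.h01]) b
  obtain ⟨d', hd', ed'⟩ := wd_diag (x := x * I.x0) (a := I.y0 * a)
    (x' := x * I.x1 * I.x0) (a' := I.y0 * I.y1 * a) (by simp only [ex, rr h, rr I.h00])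
    (by simp only [ex, rr h, rr I.h00, rr I.h11])
    (by simp only [ex, rr h, rr I.h01]) (by simp only [ex, rr h, rr I.h10]) hc
    (by simp only [ex, rr h, rr I.h01]) (by simp only [ex, rr h, rr I.h11, rr I.h01]) b⁻¹
  have e : (w * I.y0 + x * I.x0 * I.y1) * (b + 1) * (I.x0 * v + I.x1 * I.y0 * a) =
      w * (u + 1) * v + x * I.x0 * (b + 1) * (I.y0 * a) := by
    simp only [ex, rr b0, rr b1, rr I.h00, rr I.h01, rr I.h10, rr I.h11]
  have : P = d * d' := by
    ext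
    rw [Units.val_mul, ed, ed', e, hu, inv_inv]
    simp only [ex, rr h, rr h1, rr e1, rr e2, rr I.h00, rr I.h01, rr I.h10, rr I.h11]
    apply c2; match_scalars <;> decide
  rw [this]
  exact hd.mul hd'

theorem wd_fix {x a c : A} (h : a * x = 1) (hc : c ≠ 0) (hac : a * c = 0) (P : Aˣ)
    (h1 : P * x = x) : Wd Tau 6 P := by
  obtain ⟨m, hm⟩ : ∃ m, m = I.y0 * a * (↑P⁻¹ + 1) := ⟨_, rfl⟩
  have h3 := inv_fix h1
  have p2 := P.inv_mul
  have mx : m * x = 0 := by simp only [hm, ex, rr h3, aa]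
  have mP : m * P = I.y0 * a + I.y0 * a * P := by simp only [hm, ex, p2]
  have k1 : I.y1 * a * (x * I.x0) = 0 := by simp only [ex, rr h, rr I.h10]
  have k2 : (I.y1 * a + m) * (x * I.x0) = 0 := by simp only [ex, rr h, rr I.h10, rr mx]
  have k3 : I.y0 * a * (x * I.x0) = 1 := by simp only [ex, rr h, rr I.h00]
  have t1 : Tau (tr _ _ k1) := ⟨_, _, _, x * I.x1, c, rfl, k1, k3,
    by simp only [ex, rr h, rr I.h11], hc, by simp only [ex, hac], by simp only [ex, hac]⟩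
  have t2 : Tau (tr _ _ k2) := ⟨_, _, _, x * I.x1, c + x * I.x1 * m * c, rfl, k2, k3,
    by simp only [ex, rr h, rr I.h11, rr mx], fun e => hc (by
      have : (1 + x * a) * (c + x * I.x1 * m * c) = c := by
        simp only [ex, rr h, hac, aa]
      rw [← this, e, mul_zero]),
    by simp only [ex, rr h, hac, rr I.h01], by simp only [ex, rr h, hac, rr I.h11, rr mx, aa]⟩
  have := wd_supp I hpi k3 (fun e => hc (by rw [← one_mul c, ← e]; simp only [ex, hac]))
    (tr _ _ k1 * tr _ _ k2 * P)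
    (by simp only [Units.val_mul, tr_val, ex, rr h, rr h1, rr mx, rr I.h10])
    (by simp only [Units.val_mul, tr_val, ex, rr h, rr mP, rr I.h10, rr I.h00]
        apply c2; match_scalars <;> decide)
  have e : P = tr _ _ k2 * tr _ _ k1 * (tr _ _ k1 * tr _ _ k2 * P) := by
    conv_rhs => rw [← tr_inv _ _ k2, ← tr_inv _ _ k1, tr_inv, tr_inv]
    simp only [← mul_assoc]
    rw [mul_assoc (tr _ _ k2), t1.sq, mul_one, t2.sq, one_mul]
  rw [e]
  exact ((Wd.one t2).mul (Wd.one t1)).mul this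

omit [Nontrivial A] in
theorem exists_xy (hc : CenterTriv A) {g : A} (h0 : g ≠ 0) (h1 : g ≠ 1) :
    ∃ x y : A, y * x = 0 ∧ y * g * x = 1 := by
  by_contra hn
  have H : ∀ x y : A, y * x = 0 → y * g * x = 0 := fun x y h => by
    by_contra h'
    obtain ⟨p, q, e⟩ := hpi _ h'
    exact hn ⟨x * q, p * y, by simp only [ex, rr h], by simpa only [ex] using e⟩
  have e1 : I.y1 * (g * I.x0) = 0 := by simpa only [ex] using H _ _ I.h10
  have e2 : I.y0 * (g * I.x1) = 0 := by simpa only [ex] using H _ _ I.h01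
  have e3 : ∀ r, I.y1 * (g * I.x1) * r = r * (I.y0 * (g * I.x0)) := fun r => by
    have := H (I.x0 + I.x1 * r) (I.y1 + r * I.y0)
      (by simp only [ex, rr I.h00, rr I.h01, rr I.h10, rr I.h11, aa])
    have e4 : I.y0 * (g * (I.x1 * r)) = 0 := by rw [← mul_assoc g, ← mul_assoc, e2, zero_mul]
    simp only [ex, e1, e4] at this
    have := eq_of_add this
    simpa only [ex] using this.symm
  have e5 : I.y1 * (g * I.x1) = I.y0 * (g * I.x0) := by simpa using e3 1
  have e6 : g = I.x0 * (I.y0 * (g * I.x0)) * I.y0 + I.x1 * (I.y0 * (g * I.x0)) * I.y1 := by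
    have : g = (I.x0 * I.y0 + I.x1 * I.y1) * g * (I.x0 * I.y0 + I.x1 * I.y1) := by
      rw [I.hs, one_mul, mul_one]
    conv_lhs => rw [this]
    conv_rhs => arg 2; rw [← e5]
    have f1 : I.y1 * (g * (I.x0 * I.y0)) = 0 := by rw [← mul_assoc g, ← mul_assoc, e1, zero_mul]
    have f2 : I.y0 * (g * (I.x1 * I.y1)) = 0 := by rw [← mul_assoc g, ← mul_assoc, e2, zero_mul]
    simp only [ex, f1, f2]
  rcases hc (I.y0 * (g * I.x0)) (fun r => by rw [← e3, e5]) with h | h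
  · rw [h] at e6
    exact h0 (by simpa using e6)
  · rw [h, mul_one, mul_one, I.hs] at e6
    exact h1 e6

/-- every unit is a product of at most seven standard involutions -/
theorem wd_seven (hc : CenterTriv A) (g : Aˣ) : Wd Tau 7 g := by
  by_cases hg : g = 1
  · exact ⟨[], by simp, by simp, hg.symm⟩
  obtain ⟨x, y, h1, h2⟩ := exists_xy I hpi hc g.ne_zero (fun e => hg (Units.ext e))
  have h3 : ∀ z, y * (g * (x * z)) = z := fun z => by
    rw [← mul_assoc, ← mul_assoc, h2, one_mul]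
  have k1 : I.y0 * y * g * (1 + g * x * y) * (x * I.x0) = 1 := by
    simp only [ex, rr h1, h3, I.h00]
  have k2 : x * I.x1 ≠ 0 := ne_zero_of (a := I.y1 * y * g) (by simp only [ex, h3, I.h11])
  have k3 : I.y0 * y * g * (1 + g * x * y) * (x * I.x1) = 0 := by
    simp only [ex, rr h1, h3, I.h01]
  have k4 : I.y0 * y * g * (1 + g * x * y) * (g * x * I.x0) = 0 := by simp only [ex, h3, aa]
  have k5 : I.y0 * y * (g * x * I.x0) = 1 := by simp only [ex, h3, I.h00]
  obtain ⟨t, ht, et⟩ := tau_swap k1 k5 k4 (by simp only [ex, rr h1]) k2 k3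
    (by simp only [ex, rr h1])
  have := wd_fix I hpi k1 k2 k3 (t * g) (by
    rw [Units.val_mul, et, mul_assoc, ← mul_assoc (g : A), add_mul, mul_assoc _ (_ + _), add_mul _ _ (g * x * I.x0),
      k4, k5]
    apply c2; simp only [ex]; match_scalars <;> decide)
  have e : g = t * (t * g) := by rw [← mul_assoc, ht.sq, one_mul]
  rw [e]
  exact (Wd.one ht).mul this

omit [Algebra (ZMod 2) A] [Nontrivial A] in
theorem kill (r : A) : ∃ p p' q q' : A, p * p' = 1 ∧ q' * q = 1 ∧ p * r * q = 0 := by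
  by_cases h : r = 0
  · exact ⟨1, 1, 1, 1, one_mul 1, one_mul 1, by simp [h]⟩
  obtain ⟨p, q, e⟩ := hpi r h
  have e' : ∀ z, p * (r * (q * z)) = z := fun z => by
    rw [← mul_assoc, ← mul_assoc, e, one_mul]
  exact ⟨I.y0 * p, r * q * I.x0, q * I.x1, I.y1 * p * r, by simp only [ex, e', I.h00],
    by simp only [ex, e', I.h11], by simp only [ex, e', I.h01]⟩

/-- a standard involution is a commutator with any nontrivial unit -/
theorem tau_comm (hc : CenterTriv A) {g : Aˣ} (hg : g ≠ 1) :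
    ∃ k : Aˣ, Tau (g * (k * g⁻¹ * k⁻¹)) := by
  have p1 := g.mul_inv
  have p2 := g.inv_mul
  let L : A → Prop := fun x => ∃ a a' : A, a * x = 1 ∧ a * (g * x) = 0 ∧ a' * x = 0 ∧
    a' * (g * x) = 1
  let R : A → Prop := fun y => ∃ b b' : A, y * b = 1 ∧ y * (↑g⁻¹ * b) = 0 ∧ y * b' = 0 ∧
    y * (↑g⁻¹ * b') = 1
  have step : ∀ r x y, L x → R y → ∃ p q, L (x * q) ∧ R (p * y) ∧ p * (y * r * x) * q = 0 := by
    rintro r x y ⟨a, a', a1, a2, a3, a4⟩ ⟨b, b', b1, b2, b3, b4⟩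
    obtain ⟨p, p', q, q', e1, e2, e3⟩ := kill I hpi (y * r * x)
    refine ⟨p, q, ⟨q' * a, q' * a', ?_, ?_, ?_, ?_⟩, ⟨b * p', b' * p', ?_, ?_, ?_, ?_⟩, e3⟩
    · simp only [ex, rr a1, e2]
    · rw [← mul_assoc (g : A)]; simp only [mul_assoc q', rr a2, zero_mul, mul_zero]
    · simp only [ex, rr a3]
    · rw [← mul_assoc (g : A)]; simp only [mul_assoc q', rr a4, one_mul, e2]
    · simp only [ex, rr b1, e1]
    · rw [← mul_assoc (↑g⁻¹ : A)]; simp only [mul_assoc p, rr b2, zero_mul, mul_zero]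
    · simp only [ex, rr b3]
    · rw [← mul_assoc (↑g⁻¹ : A)]; simp only [mul_assoc p, rr b4, one_mul, e1]
  have hL : ∃ x, L x := by
    obtain ⟨x, y, h1, h2⟩ := exists_xy I hpi hc g.ne_zero (fun e => hg (Units.ext e))
    have h3 : ∀ z, y * (g * (x * z)) = z := fun z => by
      rw [← mul_assoc, ← mul_assoc, h2, one_mul]
    rw [mul_assoc] at h2
    exact ⟨x, y * g * (1 + g * x * y), y, by simp only [ex, h1, h2], by simp only [ex, h2, aa], h1,
      h2⟩
  have hR : ∃ y, R y := by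
    obtain ⟨x, y, h1, h2⟩ := exists_xy I hpi hc g⁻¹.ne_zero
      (fun e => hg (inv_eq_one.1 (Units.ext e)))
    have h3 : ∀ z, y * (↑g⁻¹ * (x * z)) = z := fun z => by
      rw [← mul_assoc, ← mul_assoc, h2, one_mul]
    rw [mul_assoc] at h2
    exact ⟨y, (1 + x * y * ↑g⁻¹) * ↑g⁻¹ * x, x, by simp only [ex, rr h1, h2],
      by simp only [ex, h3, aa], h1, h2⟩
  obtain ⟨x₀, l0⟩ := hL
  obtain ⟨y₀, r0⟩ := hR
  obtain ⟨p₁, q₁, l1, r1, e1⟩ := step 1 _ _ l0 r0
  obtain ⟨p₂, q₂, l2, r2, e2⟩ := step g _ _ l1 r1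
  obtain ⟨p₃, q₃, ⟨a, a', a1, a2, a3, a4⟩, ⟨b, b', b1, b2, b3, b4⟩, e3⟩ := step (↑g⁻¹) _ _ l2 r2
  have f1 : p₃ * (p₂ * (p₁ * y₀)) * (x₀ * q₁ * q₂ * q₃) = 0 := by
    have := congrArg (fun z => p₃ * p₂ * z * q₂ * q₃) e1
    simpa only [ex] using this
  have f2 : p₃ * (p₂ * (p₁ * y₀)) * (g * (x₀ * q₁ * q₂ * q₃)) = 0 := by
    have := congrArg (fun z => p₃ * z * q₃) e2
    simpa only [ex] using this
  have f3 : p₃ * (p₂ * (p₁ * y₀)) * (↑g⁻¹ * (x₀ * q₁ * q₂ * q₃)) = 0 := by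
    simpa only [ex] using e3
  generalize p₃ * (p₂ * (p₁ * y₀)) = y at *
  generalize x₀ * q₁ * q₂ * q₃ = x at *
  have g2 : ∀ {u v w c : A}, u * (v * w) = c → ∀ z, u * (v * (w * z)) = c * z := fun h z => by
    rw [← h]; simp only [ex]
  have k : y * (x * I.x0) = 0 := by simp only [ex, rr f1]
  refine ⟨tr _ _ k, x * I.x0 * I.y0 + g * x * I.x0 * I.y1, I.x0 * y + I.x1 * y * ↑g⁻¹,
    I.x0 * I.y0 * a + I.x1 * I.y0 * a', b * I.y0 + b' * I.y1, x * I.x1, ?_, ?_, ?_, ?_,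
    ne_zero_of (a := I.y1 * a) (by simp only [ex, rr a1, I.h11]), ?_, ?_⟩
  · simp only [Units.val_mul, tr_inv, tr_val, ex, rr p1, g2 f3, rr I.h00, rr I.h01, rr I.h10,
      rr I.h11]
    apply c2; match_scalars <;> decide
  · simp only [ex, rr p2, rr f1, g2 f2, g2 f3]
  · rw [← I.hs]; simp only [ex, rr a1, g2 a2, rr a3, g2 a4, rr I.h00]
  · rw [← I.hs]; simp only [ex, rr b1, g2 b2, rr b3, g2 b4]
  · simp only [ex, rr a1, rr a3, rr I.h01]
  · simp only [ex, rr f1, g2 f3]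

omit I hpi in
theorem Wd.bind {K : Type} [Group K] {P Q : K → Prop} {m n : ℕ} {g : K} (hg : Wd P m g)
    (h : ∀ t, P t → Wd Q n t) : Wd Q (m * n) g := by
  obtain ⟨l, a, b, rfl⟩ := hg
  suffices H : Wd Q (l.length * n) l.prod by
    obtain ⟨l', a', b'⟩ := H
    exact ⟨l', a'.trans (Nat.mul_le_mul_right n a), b'⟩
  clear a
  induction l with
  | nil => exact ⟨[], by simp, by simp, rfl⟩
  | cons t l ih =>
    rw [List.length_cons, List.prod_cons, add_mul, one_mul, add_comm]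
    exact (h t (b t (by simp))).mul (ih fun s hs => b s (by simp [hs]))

/-- uniform simplicity -/
theorem wd_unif (hc : CenterTriv A) {g : Aˣ} (hg : g ≠ 1) (h : Aˣ) :
    Wd (fun t => IsConj g t ∨ IsConj g⁻¹ t) 14 h := by
  obtain ⟨k, hk⟩ := tau_comm I hpi hc hg
  refine (wd_seven I hpi hc h).bind (n := 2) fun t ht => ?_
  obtain ⟨m, rfl⟩ := hk.isConj I hpi ht
  have : m * (g * (k * g⁻¹ * k⁻¹)) * m⁻¹ = m * g * m⁻¹ * (m * k * g⁻¹ * (m * k)⁻¹) := by group
  rw [this]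
  refine Wd.mul (m := 1) (n := 1) (Wd.one ?_) (Wd.one ?_)
  exacts [Or.inl (isConj_iff.2 ⟨m, rfl⟩), Or.inr (isConj_iff.2 ⟨m * k, rfl⟩)]

omit hpi in
theorem exists_tau : ∃ t : Aˣ, Tau t :=
  (tau_swap (x := I.x0) (a := I.y0) (x' := I.x1 * I.x0) (a' := I.y0 * I.y1) (c := I.x1 * I.x1)
    I.h00 (by simp only [ex, rr I.h00, rr I.h11]) (by simp only [ex, rr I.h01])
    (by simp only [ex, rr I.h10])
    (ne_zero_of (a := I.y1 * I.y1) (by simp only [ex, rr I.h11])) (by simp only [ex, rr I.h01])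
    (by simp only [ex, rr I.h11, rr I.h01])).imp fun _ h => h.1

theorem wd_invol (hc : CenterTriv A) :
    ∃ t : Aˣ, orderOf t = 2 ∧ ∀ h : Aˣ, Wd (IsConj t) 7 h := by
  obtain ⟨t, ht⟩ := exists_tau I
  refine ⟨t, orderOf_eq_prime (by rw [pow_two, ht.sq]) ht.ne_one, fun h => ?_⟩
  exact (wd_seven I hpi hc h).bind (n := 1) fun s hs => Wd.one (isConj_iff.2 (ht.isConj I hpi hs))

theorem units_simple (hc : CenterTriv A) : IsSimpleGroup Aˣ := by
  obtain ⟨t, ht⟩ := exists_tau I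
  refine { exists_pair_ne := ⟨t, 1, ht.ne_one⟩, eq_bot_or_eq_top_of_normal := fun N hN => ?_ }
  by_cases hb : N = ⊥
  · exact Or.inl hb
  obtain ⟨⟨g, hg⟩, hg1⟩ := Subgroup.ne_bot_iff_exists_ne_one.1 hb
  refine Or.inr ((Subgroup.eq_top_iff' _).2 fun h => ?_)
  obtain ⟨l, -, hl, rfl⟩ := wd_unif I hpi hc (g := g) (fun e => hg1 (Subtype.ext e)) h
  refine N.list_prod_mem fun s hs => ?_
  rcases hl s hs with e | e <;> obtain ⟨m, rfl⟩ := isConj_iff.1 e
  exacts [hN.conj_mem _ hg m, hN.conj_mem _ (inv_mem hg) m]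

end Vale.Agent.N193T
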